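import Vale.Agent.P367.Gap.Values

/-! P367: the limit-free form of `Q_p → P_*`. -/

open Filter Topology

namespace Vale.Agent.P367

open Gap

theorem limit_free (h1 : Tendsto groundValue atTop (𝓝 Pstar))
    (h2 : ∀ (p : ℕ) (γ β : Fin p → ℝ),
      Tendsto (fun n : ℕ => qaoaValue n p γ β) atTop (𝓝 (vLim p γ β)))
    (h4 : Tendsto Qsup atTop (𝓝 Pstar)) (ε : ℝ) (hε : 0 < ε) :
    ∃ (p : ℕ) (γ β : Fin p → ℝ), ∀ᶠ n in atTop, groundValue n - ε ≤ qaoaValue n p γ β := by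
  obtain ⟨p, hp⟩ := (h4.eventually (lt_mem_nhds (show Pstar - ε / 4 < Pstar by linarith))).exists
  obtain ⟨a, ha⟩ := exists_lt_of_lt_ciSup (show Pstar - ε / 4 < Qsup p from hp)
  refine ⟨p, a.1, a.2, ?_⟩
  have h5 := h1.eventually (gt_mem_nhds (show Pstar < Pstar + ε / 4 by linarith))
  have h6 := (h2 p a.1 a.2).eventually (lt_mem_nhds (show vLim p a.1 a.2 - ε / 4 <
    vLim p a.1 a.2 by linarith))
  filter_upwards [h5, h6] with n h7 h8
  linarith

end Vale.Agent.P367
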