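import Mathlib.Algebra.Group.ForwardDiff
import Mathlib.Algebra.GroupWithZero.Pointwise.Finset
import Mathlib.Algebra.Polynomial.Smeval
import Mathlib.Algebra.Ring.Action.Pointwise.Finset
import Mathlib.Analysis.Calculus.Deriv.Pi
import Mathlib.Analysis.Calculus.Deriv.Polynomial
import Mathlib.Analysis.Complex.ExponentialBounds
import Mathlib.Analysis.Complex.Liouville
import Mathlib.Analysis.Complex.TaylorSeries
import Mathlib.Analysis.Normed.Algebra.MatrixExponential
import Mathlib.Analysis.Normed.Group.Tannery
import Mathlib.Analysis.SpecialFunctions.Trigonometric.Series
import Mathlib.Analysis.Subadditive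
import Mathlib.CategoryTheory.Countable
import Mathlib.Probability.Distributions.Gaussian.Real
import Mathlib.Probability.Distributions.Poisson.PoissonLimitThm
import Mathlib.RingTheory.PicardGroup
import Mathlib.Tactic
import Mathlib.Topology.UniformSpace.Uniformizable

/-! The part of Mathlib that the development of this folder uses. -/
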